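import Vale.Agent.P315.Model

/-! Mathematical description of the algorithm.

Geometry.  The alignment grid is cut along antidiagonals `u = i + j`.  A node `(h, a)` of a
`b`-ary tree covers `u ∈ [a*B0*b^h, (a+1)*B0*b^h]`.  A state `(p, p')` of the node gives the
`i`-coordinates of its two endpoints in units of `b^h`; all values of a node are in units of
`b^h` too.  A line `(l, d)` is the state `(l, l+d)` with `l ≤ a*B0`, `d ≤ B0`. -/

namespace Vale.Agent.P315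

open Finset

/-! ### Strings -/

/-- Recursive form of the edit distance. -/
def lev : List ℕ → List ℕ → ℕ
  | [], v => v.length
  | c :: u, [] => (c :: u).length
  | c :: u, d :: v =>
    min (min (lev u (d :: v) + 1) (lev (c :: u) v + 1)) (lev u v + if c = d then 0 else 1)
termination_by u v => u.length + v.length

/-- The string followed by an infinite run of a new symbol. -/
def xt (x : List ℕ) (i : ℕ) : ℕ := if i < x.length then x.getD i 0 + 1 else 0

def slice (f : ℕ → ℕ) (i s : ℕ) : List ℕ := (List.range' i s).map f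

/-- Distance of `f[i, i+s)` and `g[j, j+t)`. -/
def DD (f g : ℕ → ℕ) (i j s t : ℕ) : ℕ := lev (slice f i s) (slice g j t)

/-- Potential at the point with `i`-coordinate `i` of the antidiagonal `u`. -/
def psi (f g : ℕ → ℕ) (u i : ℕ) : ℕ := DD f g 0 0 (min i u) (u - i)

/-- Dynamic programme towards the fixed end point `(i2, j2)`. -/
def dpA (f g : ℕ → ℕ) (i2 j2 : ℕ) : ℕ → ℕ → ℕ
  | 0, t => t
  | s + 1, 0 => s + 1
  | s + 1, t + 1 =>
    min (min (dpA f g i2 j2 s (t + 1) + 1) (dpA f g i2 j2 (s + 1) t + 1))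
      (dpA f g i2 j2 s t + if f (i2 - (s + 1)) = g (j2 - (t + 1)) then 0 else 1)

/-! ### Averages over finite types -/

noncomputable def av {σ : Type} [Fintype σ] (f : σ → ℝ) : ℝ := (∑ s, f s) / Fintype.card σ

open Classical in
noncomputable def pr {σ : Type} [Fintype σ] (p : σ → Prop) : ℝ :=
  ((univ.filter p).card : ℝ) / Fintype.card σ

/-- Soft minimum at temperature `τ` of `X 0, …, X (n-1)`. -/
noncomputable def sm (τ : ℝ) (n : ℕ) (X : ℕ → ℝ) : ℝ :=
  -τ * Real.log ((∑ o ∈ range n, Real.exp (-X o / τ)) / n)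

/-! ### Parameters -/

structure Par where
  ln : ℕ
  lb : ℕ
  B0 : ℕ
  imax : ℕ
  s0 : ℕ
  K : ℕ
  S : ℕ
  k0 : ℕ
  ell : ℕ
  D : ℕ
  wz : ℕ

abbrev Tab := ℕ → ℕ → ℕ
abbrev TabR := ℕ → ℕ → ℝ

def Lip (t : Tab) : Prop :=
  ∀ p p' q q', t p p' ≤ t q q' + 2 * (Nat.dist p q + Nat.dist p' q')

namespace Par

variable (P : Par)

def N : ℕ := 2 ^ P.ln
def b : ℕ := 2 ^ P.lb
def r : ℕ := 2 ^ (P.lb - P.ln)
def Gm : ℕ := 2 ^ P.imax
def RV : ℕ := 8 * P.Gm
def Om : ℕ := (2 * P.Gm) ^ P.b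
def T (i : ℕ) : ℕ := 2 ^ (i + P.s0)
def Wz : ℕ := 2 ^ P.wz
def Xmax : ℕ := P.b * (P.K + 3) * P.RV
def NA : ℕ := P.b ^ P.D
def W : ℕ := P.b ^ P.D * P.B0
def SZ (m : ℕ) : ℕ := (2 * P.N) ^ m
def HS : ℕ := P.K * P.NA * (P.k0 + 1) * P.S * P.SZ P.ell
/-- Number of local (line, scale) pairs. -/
def Mloc : ℕ := (2 * P.RV + 1) * (P.B0 + 1) * (P.imax + 1)
def eta : ℕ := 6 * P.ell + 10
/-- Accuracy after `j` contraction steps. -/
noncomputable def alpha (j : ℕ) : ℝ := P.RV / 2 ^ j + (3 * P.ell + 4)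

/-- Structural conditions on the parameters. -/
structure Good : Prop where
  ln_le : P.ln ≤ P.lb
  lb_ge : 2 ≤ P.lb
  B0_pos : 1 ≤ P.B0
  Gm_ge : P.b * P.B0 + P.b + 2 ≤ P.Gm
  ell_pos : 1 ≤ P.ell
  K_pos : 1 ≤ P.K
  S_pos : 1 ≤ P.S
  RV_le : P.RV ≤ 2 ^ P.k0
  Wz_gt : P.Om * P.T P.imax ^ 2 < P.Wz
  s0_ge : 4096 * P.b * P.ell ^ 2 ≤ 2 ^ P.s0
  N_ge : 4096 * (P.ell : ℝ) ^ 4 * Real.log (2 * P.Mloc) ≤ P.N

/-! ### One step of the recursion -/

def lines (a : ℕ) : Finset (ℕ × ℕ) := range (a * P.B0 + 1) ×ˢ range (P.B0 + 1)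

/-- Lipschitz closure, capped at `RV`. -/
def clo (a : ℕ) (T : Tab) : Tab := fun p p' =>
  (P.lines a).fold min P.RV
    (fun l => 2 * (Nat.dist p l.1 + Nat.dist p' (l.1 + l.2)) + T l.1 l.2)

noncomputable def cloR (a : ℕ) (T : TabR) : TabR := fun p p' =>
  (P.lines a).fold min (P.RV : ℝ)
    (fun l => ((2 * (Nat.dist p l.1 + Nat.dist p' (l.1 + l.2)) : ℕ) : ℝ) + T l.1 l.2)

/-- The `j`-th break point (in child units) of option `o` at scale `2^i` around line `(l, d)`. -/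
def q (l d i o j : ℕ) : ℕ :=
  if j = 0 ∨ j = P.b then l * P.b + j * d
  else l * P.b + j * d + o / (2 * P.Gm) ^ j % (2 * 2 ^ i) - 2 ^ i

def val (t : ℕ → Tab) (l d i o : ℕ) : ℕ :=
  ∑ j ∈ range P.b, t j (P.q l d i o j) (P.q l d i o (j + 1))

noncomputable def valR (t : ℕ → TabR) (l d i o : ℕ) : ℝ :=
  ∑ j ∈ range P.b, t j (P.q l d i o j) (P.q l d i o (j + 1))

/-- Fixed point table of `Wz * (1 - 1/T i)^x`. -/
def EX (i : ℕ) : ℕ → ℕ
  | 0 => P.Wz
  | x + 1 => EX i x - EX i x / P.T i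

/-- Integer soft minimum. -/
def Fhat (i : ℕ) (X : ℕ → ℕ) : ℕ :=
  (range P.Om).fold min P.Xmax X + ∑ y ∈ range P.Xmax,
    if ∑ o ∈ range P.Om, P.EX i (X o - (range P.Om).fold min P.Xmax X) ≤ P.Om * P.EX i (y + 1)
    then 1 else 0

noncomputable def tau (i : ℕ) : ℝ := -1 / Real.log (1 - 1 / (P.T i : ℝ))

noncomputable def Fr (i : ℕ) (X : ℕ → ℝ) : ℝ := sm (P.tau i) P.Om X

/-- Soft-min increment with prior given by the cumulated tables `C`. -/
noncomputable def Psi (C : ℕ → Tab) (Q : ℕ → ℕ → ℕ → ℕ → ℝ) (l d i : ℕ) : ℝ :=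
  P.Fr i (fun o => (P.val C l d i o : ℝ) + Q l d i o) - P.Fr i (fun o => (P.val C l d i o : ℝ))

def TN (C Y : ℕ → Tab) (off : ℕ) : Tab := fun l d =>
  (range (P.imax + 1)).fold min P.B0
    (fun i => (P.Fhat i (P.val Y l d i) - P.Fhat i (P.val C l d i) - off) / P.b)

noncomputable def TR (C : ℕ → Tab) (Q : ℕ → ℕ → ℕ → ℕ → ℝ) : TabR := fun l d =>
  (range (P.imax + 1)).fold min (P.B0 : ℝ) (fun i => max 0 (P.Psi C Q l d i / P.b))

def stepN (a : ℕ) (C Y : ℕ → Tab) (off : ℕ) : Tab := P.clo a (P.TN C Y off)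

noncomputable def stepR (a : ℕ) (C : ℕ → Tab) (V : ℕ → TabR) : TabR :=
  P.cloR a (P.TR C (P.valR V))

/-! ### The algorithm -/

def leafT (f g : ℕ → ℕ) (a : ℕ) : Tab := fun l d =>
  dpA f g (l + d) ((a + 1) * P.B0 - (l + d)) d (P.B0 - d)

def leaf (f g : ℕ → ℕ) (a : ℕ) : Tab := P.clo a (P.leafT f g a)

/-- Random child index read from the tape at (block) address `c`. -/
def jv (ρ : ℕ → Bool) (c : ℕ) : ℕ := ∑ t ∈ range P.lb, if ρ (c * P.lb + t) then 2 ^ t else 0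

/-- Cumulated official tables of the children of `a` over the rounds before `k`
(`A k a j` is the table of round `k`, node `a`, accuracy level `j` one height below). -/
def cumT (A : ℕ → ℕ → ℕ → Tab) (k a : ℕ) : ℕ → Tab := fun jj p p' =>
  ∑ k' ∈ range k, A k' (a * P.b + jj) P.k0 p p'

/-- Control variate estimator of the children tables (shifted up by `b * RV` in total). -/
def yT (C L : ℕ → Tab) (J : Fin P.N → ℕ) (Rr : Fin P.N → Tab) : ℕ → Tab := fun jj p p' =>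
  C jj p p' + L jj p p' + ∑ i : Fin P.N, if J i = jj then P.r * (Rr i p p' + P.RV - L jj p p') else 0

/-- A pass just above the bottom of a window. -/
def pass0 (A : ℕ → ℕ → ℕ → Tab) (k a : ℕ) : Tab :=
  P.stepN a (P.cumT A k a) (fun jj p p' => P.cumT A k a jj p p' + A k (a * P.b + jj) P.k0 p p') 0

/-- A pass higher up in a window, given the sampled children and their sub-passes. -/
def pass1 (A : ℕ → ℕ → ℕ → Tab) (k a j : ℕ) (J : Fin P.N → ℕ) (Rr : Fin P.N → Tab) : Tab :=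
  P.stepN a (P.cumT A k a) (P.yT (P.cumT A k a) (fun jj => A k (a * P.b + jj) (j - 1)) J Rr)
    (P.b * P.RV)

/-- Tape address of sample `i` of a pass whose sub-passes have level `m`. -/
def sad (m ad i : ℕ) : ℕ := ad + i * (2 * P.SZ m)

/-- Tape address of pass `s` of the official table `(h, k, a, j)`. -/
def base (h k a j s : ℕ) : ℕ :=
  ((((h * P.K + k) * P.NA + a) * (P.k0 + 1) + j) * P.S + s) * P.SZ P.ell

def passF (ρ : ℕ → Bool) (A : ℕ → ℕ → ℕ → Tab) (Pp : ℕ → ℕ → ℕ → ℕ → Tab) (h k a j ad : ℕ) :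
    Tab :=
  if h % P.ell = 0 then P.pass0 A k a
  else P.pass1 A k a j (fun i => P.jv ρ (P.sad (h % P.ell - 1) ad i))
    (fun i => Pp k (a * P.b + P.jv ρ (P.sad (h % P.ell - 1) ad i)) j
      (P.sad (h % P.ell - 1) ad i + P.SZ (h % P.ell - 1)))

/-- Official tables and passes at each height. -/
def AP (f g : ℕ → ℕ) (ρ : ℕ → Bool) :
    ℕ → (ℕ → ℕ → ℕ → Tab) × (ℕ → ℕ → ℕ → ℕ → Tab)
  | 0 => (fun _ a _ => P.leaf f g a, fun _ _ _ _ _ _ => 0)
  | h + 1 =>
    (fun k a j p p' => if j = 0 then 0 else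
        (∑ s ∈ range P.S,
          P.passF ρ (AP f g ρ h).1 (AP f g ρ h).2 h k a j (P.base (h + 1) k a j s) p p') / P.S,
      P.passF ρ (AP f g ρ h).1 (AP f g ρ h).2 h)

/-- Official table `A h k a j`. -/
def A (f g : ℕ → ℕ) (ρ : ℕ → Bool) (h : ℕ) : ℕ → ℕ → ℕ → Tab := (P.AP f g ρ h).1
/-- Pass `Pa h k a j ad`. -/
def Pa (f g : ℕ → ℕ) (ρ : ℕ → Bool) (h : ℕ) : ℕ → ℕ → ℕ → ℕ → Tab := (P.AP f g ρ h).2

theorem A_zero (f g : ℕ → ℕ) (ρ : ℕ → Bool) (k a j : ℕ) : P.A f g ρ 0 k a j = P.leaf f g a := rfl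

theorem Pa_succ (f g : ℕ → ℕ) (ρ : ℕ → Bool) (h : ℕ) :
    P.Pa f g ρ (h + 1) = P.passF ρ (P.A f g ρ h) (P.Pa f g ρ h) h := rfl

theorem A_succ (f g : ℕ → ℕ) (ρ : ℕ → Bool) (h k a j p p' : ℕ) :
    P.A f g ρ (h + 1) k a j p p' = if j = 0 then 0 else
      (∑ s ∈ range P.S, P.Pa f g ρ (h + 1) k a j (P.base (h + 1) k a j s) p p') / P.S := rfl

def iend (x y : List ℕ) : ℕ := x.length + (P.W - x.length - y.length) / 2

def allow : ℕ := (P.D * P.eta + 3) * P.NA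

/-- The output, as a function of the official tables `A h k a j`. -/
def ans (A : ℕ → ℕ → ℕ → ℕ → Tab) (x y : List ℕ) : ℕ :=
  P.NA * (range P.K).fold min P.RV (fun k => A P.D k 0 P.k0 0 (P.iend x y / P.NA)) + P.allow

/-! ### Reference recursion and the good event -/

/-- Exact recursion inside a window, started from the official tables at its bottom. -/
noncomputable def refV (A : ℕ → ℕ → ℕ → ℕ → Tab) (k : ℕ) : ℕ → ℕ → TabR
  | 0 => fun a p p' => A 0 k a P.k0 p p'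
  | h + 1 => fun a => P.stepR a (P.cumT (A h) k a) (fun jj =>
      if h % P.ell = 0 then (fun p p' => (A h k (a * P.b + jj) P.k0 p p' : ℝ))
      else refV A k h (a * P.b + jj))

def GoodAt (A : ℕ → ℕ → ℕ → ℕ → Tab) (h : ℕ) : Prop :=
  ∀ k < P.K, ∀ a < P.b ^ (P.D - h), ∀ j ≤ P.k0, ∀ p p',
    |(A h k a j p p' : ℝ) - P.refV A k h a p p'| ≤ P.alpha j

/-- What the deterministic analysis needs. -/
structure Star (f g : ℕ → ℕ) (A : ℕ → ℕ → ℕ → ℕ → Tab) : Prop where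
  leaf : ∀ k a, A 0 k a P.k0 = P.leaf f g a
  step : ∀ h < P.D, ∀ k < P.K, ∀ a < P.b ^ (P.D - (h + 1)), ∀ p p',
    |(A (h + 1) k a P.k0 p p' : ℝ) - P.stepR a (P.cumT (A h) k a)
      (fun jj p p' => (A h k (a * P.b + jj) P.k0 p p' : ℝ)) p p'| ≤ P.eta

/-! ### Seeds -/

/-- Positions of the random bits of a pass of level `m`. -/
def Idx : ℕ → Type
  | 0 => Empty
  | m + 1 => Fin P.N × (Fin P.lb ⊕ Idx m)

instance idxFintype : (m : ℕ) → Fintype (P.Idx m)
  | 0 => inferInstanceAs (Fintype Empty)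
  | m + 1 => letI := idxFintype m; inferInstanceAs (Fintype (Fin P.N × (Fin P.lb ⊕ P.Idx m)))

instance idxDecEq : (m : ℕ) → DecidableEq (P.Idx m)
  | 0 => inferInstanceAs (DecidableEq Empty)
  | m + 1 => letI := idxDecEq m; inferInstanceAs (DecidableEq (Fin P.N × (Fin P.lb ⊕ P.Idx m)))

def jb (u : Fin P.lb → Bool) : ℕ := ∑ t : Fin P.lb, if u t then 2 ^ (t : ℕ) else 0

/-- The pass of level `m` above the window bottom `hb`, as a function of its seed. -/
def passS (A : ℕ → ℕ → ℕ → ℕ → Tab) (k j hb : ℕ) : (m : ℕ) → ℕ → (P.Idx m → Bool) → Tab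
  | 0, a, _ => P.pass0 (A hb) k a
  | m + 1, a, s => P.pass1 (A (hb + m + 1)) k a j (fun i => P.jb (fun t => s (i, Sum.inl t)))
      (fun i => passS A k j hb m (a * P.b + P.jb (fun t => s (i, Sum.inl t)))
        (fun u => s (i, Sum.inr u)))

/-- Bit address of a position. -/
def pos : (m : ℕ) → ℕ → P.Idx m → ℕ
  | 0, _, u => Empty.elim u
  | m + 1, ad, (i, Sum.inl t) => P.sad m ad i * P.lb + t
  | m + 1, ad, (i, Sum.inr u) => pos m (P.sad m ad i + P.SZ m) u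

end Par

/-- The tape as an infinite bit string. -/
def ext {R : ℕ} (r : Fin R → Bool) : ℕ → Bool := fun i => if h : i < R then r ⟨i, h⟩ else false

end Vale.Agent.P315
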